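import Vale.Agent.P359.CertGap
import Vale.Agent.P359.CertBlocks

/-!
P359: the spectral gap of the spherical Laughlin Hamiltonian at filling `1/3`.
-/

namespace Vale.Agent.Results.P359.LaughlinGap

open scoped BigOperators
open _root_.P359

/-- `H ≥ (3/100) (I - P_L)` on antisymmetric tensors for all large particle numbers. -/
theorem result :
    (∀ N : ℕ, IsAnti (laughlin N) ∧ laughlin N ≠ 0) ∧
    ∃ N0 : ℕ, ∀ N ≥ N0, ∀ ψ : Config (3 * (N - 1)) N → ℂ, IsAnti ψ →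
      (3 / 100 : ℝ)
          * (∑ x, ‖ψ x‖ ^ 2 - ‖∑ x, (laughlin N x : ℂ) * ψ x‖ ^ 2 / ∑ x, laughlin N x ^ 2)
        ≤ (∑ x, (starRingEnd ℂ) (ψ x) * H (3 * (N - 1)) N ψ x).re :=
  ⟨fun N => ⟨laughlin_anti N, laughlin_ne_zero N⟩, cert_gap_of_blocks cert_blocks⟩

end Vale.Agent.Results.P359.LaughlinGap
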